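import Vale.Agent.P073.H117.Ops

/-!
# [COL-LIM]: the limit of the chain of the collapse theorem
-/

namespace Vale.Agent.P073.H117

open Set Filter Metric Topology

variable {E : Type*} [NormedAddCommGroup E] [InnerProductSpace ℝ E] [FiniteDimensional ℝ E]
  [Nontrivial E] {h : ℝ} {V : Set E}

omit [FiniteDimensional ℝ E] [Nontrivial E] in
/-- the limit of the chain -/
noncomputable def PhiL (h : ℝ) (V : Set E) (y : E) : ℝ := ⨆ k, Phi h V k y

theorem Phi_monotone (hh : 0 < h) (hV : Bornology.IsBounded V) (y : E) :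
    Monotone fun k => Phi h V k y :=
  monotone_nat_of_le_succ fun k => Phi_mono hh hV k y

omit [FiniteDimensional ℝ E] [Nontrivial E] in
theorem bddAbove_Phi {b : E → ℝ} (hb : ∀ k y, Phi h V k y ≤ qq y + b y) (y : E) :
    BddAbove (range fun k => Phi h V k y) :=
  ⟨qq y + b y, by rintro _ ⟨k, rfl⟩; exact hb k y⟩

omit [FiniteDimensional ℝ E] [Nontrivial E] in
theorem Phi_le_PhiL {b : E → ℝ} (hb : ∀ k y, Phi h V k y ≤ qq y + b y) (k : ℕ) (y : E) :
    Phi h V k y ≤ PhiL h V y := le_ciSup (bddAbove_Phi hb y) k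

theorem tendsto_PhiL (hh : 0 < h) (hV : Bornology.IsBounded V) {b : E → ℝ}
    (hb : ∀ k y, Phi h V k y ≤ qq y + b y) (y : E) :
    Tendsto (fun k => Phi h V k y) atTop (𝓝 (PhiL h V y)) :=
  tendsto_atTop_ciSup (Phi_monotone hh hV y) (bddAbove_Phi hb y)

/-- a pointwise limit of convex functions is convex -/
theorem convexOn_of_tendsto {F : ℕ → E → ℝ} {f : E → ℝ} (hF : ∀ k, ConvexOn ℝ univ (F k))
    (hlim : ∀ y, Tendsto (fun k => F k y) atTop (𝓝 (f y))) : ConvexOn ℝ univ f := by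
  refine ⟨convex_univ, fun x _ y _ a b ha hb hab => ?_⟩
  refine le_of_tendsto_of_tendsto' (hlim _)
    (((hlim x).const_mul a).add ((hlim y).const_mul b)) fun k => ?_
  have := (hF k).2 (mem_univ x) (mem_univ y) ha hb hab
  simpa [smul_eq_mul] using this

theorem convexOn_PhiL (hh : 0 < h) (hV : Bornology.IsBounded V) {b : E → ℝ}
    (hb : ∀ k y, Phi h V k y ≤ qq y + b y) : ConvexOn ℝ univ (PhiL h V) :=
  convexOn_of_tendsto (convexOn_Phi hh hV) (tendsto_PhiL hh hV hb)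

theorem convexOn_sub_PhiL (hh : 0 < h) (hV : Bornology.IsBounded V) {b : E → ℝ}
    (hb : ∀ k y, Phi h V k y ≤ qq y + b y) :
    ConvexOn ℝ univ (fun y => (1 + h) * qq y - PhiL h V y) :=
  convexOn_of_tendsto (F := fun k y => GG h V k y) (convexOn_GG hh hV) fun y =>
    (tendsto_const_nhds.sub (tendsto_PhiL hh hV hb y))

theorem qq_le_PhiL {b : E → ℝ} (hb : ∀ k y, Phi h V k y ≤ qq y + b y) (y : E) :
    qq y ≤ PhiL h V y := Phi_le_PhiL hb 0 y

theorem PhiL_le {b : E → ℝ} (hb : ∀ k y, Phi h V k y ≤ qq y + b y) (y : E) :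
    PhiL h V y ≤ qq y + b y := ciSup_le fun k => hb k y

theorem PhiL_eq {y : E} (hy : ∀ k, Phi h V k y = qq y) : PhiL h V y = qq y := by
  unfold PhiL
  simp only [hy]
  exact ciSup_const

/-- the convergence is uniform -/
theorem exists_uniform (hh : 0 < h) (hV : Bornology.IsBounded V) {b : E → ℝ}
    (hb : ∀ k y, Phi h V k y ≤ qq y + b y)
    (hR : ∃ R, ∀ k y, R ≤ ‖y‖ → Phi h V k y = qq y) {ε : ℝ} (hε : 0 < ε) :
    ∃ k, ∀ y, PhiL h V y ≤ Phi h V k y + ε := by
  obtain ⟨R, hR⟩ := hR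
  have h1 : TendstoUniformlyOn (fun k => Phi h V k) (PhiL h V) atTop (closedBall (0 : E) R) :=
    Monotone.tendstoUniformlyOn_of_forall_tendsto (isCompact_closedBall _ _)
      (fun k => (convexOn_Phi hh hV k).locallyLipschitz.continuous.continuousOn)
      (fun y _ => Phi_monotone hh hV y)
      (convexOn_PhiL hh hV hb).locallyLipschitz.continuous.continuousOn
      fun y _ => tendsto_PhiL hh hV hb y
  rw [Metric.tendstoUniformlyOn_iff] at h1
  obtain ⟨k, hk⟩ := (h1 ε hε).exists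
  refine ⟨k, fun y => ?_⟩
  by_cases hy : ‖y‖ ≤ R
  · have h2 := hk y (by rwa [mem_closedBall_zero_iff])
    rw [Real.dist_eq, abs_lt] at h2
    linarith
  · rw [PhiL_eq fun j => hR j y (not_le.mp hy).le, hR k y (not_le.mp hy).le]
    linarith

/-- the limit is a fixed point of the envelope over the complement of `V` -/
theorem env_PhiL (hh : 0 < h) (hV : Bornology.IsBounded V) {b : E → ℝ}
    (hb : ∀ k y, Phi h V k y ≤ qq y + b y)
    (hR : ∃ R, ∀ k y, R ≤ ‖y‖ → Phi h V k y = qq y) (y : E) :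
    Env Vᶜ (PhiL h V) y = PhiL h V y := by
  have hVc : Bornology.IsBounded (Vᶜᶜ : Set E) := by rwa [compl_compl]
  have hc := convexOn_PhiL hh hV hb
  refine le_antisymm (le_of_forall_pos_le_add fun ε hε => ?_) (le_env_of_convex hVc hc y)
  obtain ⟨k, hk⟩ := exists_uniform hh hV hb hR hε
  calc Env Vᶜ (PhiL h V) y ≤ Env Vᶜ (Phi h V k) y + ε :=
        env_le_add hVc (exists_minor hc _) (fun z _ => hk z) y
    _ ≤ Phi h V (k + 1) y + ε := by
        have := env_le_Phi hh hV k y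
        linarith
    _ ≤ PhiL h V y + ε := by
        have := Phi_le_PhiL hb (k + 1) y
        linarith

/-- **the limit**: all properties -/
theorem lim (hh : 0 < h) (hV : Bornology.IsBounded V) {b : E → ℝ}
    (hb : ∀ k y, Phi h V k y ≤ qq y + b y)
    (hR : ∃ R, ∀ k y, R ≤ ‖y‖ → Phi h V k y = qq y) :
    ∃ F : E → ℝ, ConvexOn ℝ univ F ∧ ConvexOn ℝ univ (fun y => (1 + h) * qq y - F y) ∧
      (∀ y, qq y ≤ F y) ∧ (∀ y, F y ≤ qq y + b y) ∧
      (∀ y, (∀ k, Phi h V k y = qq y) → F y = qq y) ∧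
      (∀ y, Env Vᶜ F y = F y) :=
  ⟨PhiL h V, convexOn_PhiL hh hV hb, convexOn_sub_PhiL hh hV hb, qq_le_PhiL hb, PhiL_le hb,
    fun _ hy => PhiL_eq hy, env_PhiL hh hV hb hR⟩

end Vale.Agent.P073.H117
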