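import Mathlib

/-!
# [COL-OPS]: the operators `A` and `S` of the collapse theorem

`Env K f` is the supremum of the affine functions that are at most `f` on `K`,
`SS h Psi = (1+h) q - Env univ ((1+h) q - Psi)`, and `Phi h V` is the chain
`Phi 0 = q`, `Phi (k+1) = SS h (Env Vᶜ (Phi k))`.
-/

namespace Vale.Agent.P073.H117

open Set Filter Metric

variable {E : Type*} [NormedAddCommGroup E] [InnerProductSpace ℝ E]

/-- the affine function with slope `p` and constant `c` is at most `f` on `K` -/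
def Minor (K : Set E) (f : E → ℝ) (p : E) (c : ℝ) : Prop :=
  ∀ z ∈ K, inner ℝ p z + c ≤ f z

/-- the supremum of the affine functions that are at most `f` on `K` -/
noncomputable def Env (K : Set E) (f : E → ℝ) (y : E) : ℝ :=
  sSup {t | ∃ (p : E) (c : ℝ), (∀ z ∈ K, inner ℝ p z + c ≤ f z) ∧ t = inner ℝ p y + c}

/-- half the square of the norm -/
noncomputable def qq (y : E) : ℝ := ‖y‖ ^ 2 / 2

/-- the operator `S` -/
noncomputable def SS (h : ℝ) (Psi : E → ℝ) (y : E) : ℝ :=
  (1 + h) * qq y - Env univ (fun z => (1 + h) * qq z - Psi z) y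

/-- the chain -/
noncomputable def Phi (h : ℝ) (V : Set E) : ℕ → E → ℝ
  | 0 => qq
  | k + 1 => SS h (Env Vᶜ (Phi h V k))

/-- the dual chain -/
noncomputable def GG (h : ℝ) (V : Set E) (k : ℕ) (y : E) : ℝ := (1 + h) * qq y - Phi h V k y

omit [InnerProductSpace ℝ E] in
theorem qq_nonneg (y : E) : 0 ≤ qq y := by unfold qq; positivity

theorem qq_add (y u : E) : qq (y + u) = qq y + inner ℝ y u + qq u := by
  unfold qq
  rw [norm_add_sq_real]
  ring

omit [InnerProductSpace ℝ E] in
theorem continuous_qq : Continuous (qq : E → ℝ) := by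
  unfold qq
  fun_prop

/-- the parabola `q` above its tangent -/
theorem qq_tangent (y z : E) : qq z = qq y + inner ℝ y (z - y) + qq (z - y) := by
  have h := qq_add y (z - y)
  rwa [add_sub_cancel] at h

/-- two steps with zero mean -/
theorem mean_zero (x y : E) {a b : ℝ} (hab : a + b = 1) :
    a • (x - (a • x + b • y)) + b • (y - (a • x + b • y)) = 0 := by
  have h : b = 1 - a := by linarith
  subst h
  module

/-- the Jensen defect of `q` -/
theorem qq_comb (z : E) {u0 u1 : E} {a b : ℝ} (hab : a + b = 1) (h0 : a • u0 + b • u1 = 0) :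
    a * qq (z + u0) + b * qq (z + u1) = qq z + (a * qq u0 + b * qq u1) := by
  rw [qq_add, qq_add]
  have h : a * inner ℝ z u0 + b * inner ℝ z u1 = 0 := by
    rw [← real_inner_smul_right, ← real_inner_smul_right, ← inner_add_right, h0, inner_zero_right]
  have h2 : a * qq z + b * qq z = qq z := by rw [← add_mul, hab, one_mul]
  nlinarith

theorem convexOn_qq : ConvexOn ℝ univ (qq : E → ℝ) := by
  refine ⟨convex_univ, fun x _ y _ a b ha hb hab => ?_⟩
  have h := qq_comb (a • x + b • y) hab (mean_zero x y hab)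
  rw [add_sub_cancel, add_sub_cancel] at h
  have h3 := mul_nonneg ha (qq_nonneg (x - (a • x + b • y)))
  have h4 := mul_nonneg hb (qq_nonneg (y - (a • x + b • y)))
  simp only [smul_eq_mul]
  linarith

/-! ## The envelope -/

/-- `K` contains both ends of a segment around every point -/
theorem exists_ends [Nontrivial E] {K : Set E} (hK : Bornology.IsBounded Kᶜ) (y : E) :
    ∃ u : E, y + u ∈ K ∧ y - u ∈ K := by
  obtain ⟨R, hR⟩ := hK.subset_closedBall (0 : E)
  obtain ⟨e, he⟩ := exists_norm_eq E (c := |R| + ‖y‖ + 1) (by positivity)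
  refine ⟨e, ?_, ?_⟩
  · by_contra h
    have h1 := hR h
    rw [mem_closedBall_zero_iff] at h1
    have h2 : ‖e‖ ≤ ‖y + e‖ + ‖y‖ := by
      have := norm_sub_le (y + e) y
      rwa [add_sub_cancel_left] at this
    have h3 := le_abs_self R
    linarith
  · by_contra h
    have h1 := hR h
    rw [mem_closedBall_zero_iff] at h1
    have h2 : ‖e‖ ≤ ‖y‖ + ‖y - e‖ := by
      have := norm_sub_le y (y - e)
      rwa [sub_sub_cancel] at this
    have h3 := le_abs_self R
    linarith

theorem minor_le_ends {K : Set E} {f : E → ℝ} {p : E} {c : ℝ}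
    (hm : ∀ z ∈ K, inner ℝ p z + c ≤ f z) {y u : E} (h1 : y + u ∈ K) (h2 : y - u ∈ K) :
    inner ℝ p y + c ≤ (f (y + u) + f (y - u)) / 2 := by
  have h3 := hm _ h1
  have h4 := hm _ h2
  rw [inner_add_right] at h3
  rw [inner_sub_right] at h4
  linarith

theorem bddAbove_env [Nontrivial E] {K : Set E} (hK : Bornology.IsBounded Kᶜ) (f : E → ℝ) (y : E) :
    BddAbove {t | ∃ (p : E) (c : ℝ), (∀ z ∈ K, inner ℝ p z + c ≤ f z) ∧ t = inner ℝ p y + c} := by
  obtain ⟨u, h1, h2⟩ := exists_ends hK y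
  refine ⟨(f (y + u) + f (y - u)) / 2, ?_⟩
  rintro t ⟨p, c, hm, rfl⟩
  exact minor_le_ends hm h1 h2

/-- every affine minorant is at most the envelope -/
theorem le_env [Nontrivial E] {K : Set E} (hK : Bornology.IsBounded Kᶜ) {f : E → ℝ} {p : E} {c : ℝ}
    (hm : ∀ z ∈ K, inner ℝ p z + c ≤ f z) (y : E) : inner ℝ p y + c ≤ Env K f y :=
  le_csSup (bddAbove_env hK f y) ⟨p, c, hm, rfl⟩

/-- the envelope is the least upper bound -/
theorem env_le_of {K : Set E} {f : E → ℝ} {y : E} {B : ℝ}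
    (hne : ∃ (p : E) (c : ℝ), ∀ z ∈ K, inner ℝ p z + c ≤ f z)
    (h : ∀ (p : E) (c : ℝ), (∀ z ∈ K, inner ℝ p z + c ≤ f z) → inner ℝ p y + c ≤ B) :
    Env K f y ≤ B := by
  refine csSup_le ?_ ?_
  · obtain ⟨p, c, hm⟩ := hne
    exact ⟨_, p, c, hm, rfl⟩
  · rintro t ⟨p, c, hm, rfl⟩
    exact h p c hm

/-- an affine minorant which is almost as large as the envelope at a point -/
theorem exists_near {K : Set E} {f : E → ℝ} (y : E)
    (hne : ∃ (p : E) (c : ℝ), ∀ z ∈ K, inner ℝ p z + c ≤ f z) {ε : ℝ} (hε : 0 < ε) :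
    ∃ (p : E) (c : ℝ), (∀ z ∈ K, inner ℝ p z + c ≤ f z) ∧ Env K f y - ε < inner ℝ p y + c := by
  have h1 : ({t | ∃ (p : E) (c : ℝ), (∀ z ∈ K, inner ℝ p z + c ≤ f z) ∧
      t = inner ℝ p y + c} : Set ℝ).Nonempty := by
    obtain ⟨p, c, hm⟩ := hne
    exact ⟨_, p, c, hm, rfl⟩
  obtain ⟨t, ⟨p, c, hm, rfl⟩, ht⟩ := exists_lt_of_lt_csSup h1
    (show Env K f y - ε < Env K f y by linarith)
  exact ⟨p, c, hm, ht⟩

/-- on `K` the envelope is at most the function -/
theorem env_le {K : Set E} {f : E → ℝ}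
    (hne : ∃ (p : E) (c : ℝ), ∀ z ∈ K, inner ℝ p z + c ≤ f z) {y : E} (hy : y ∈ K) :
    Env K f y ≤ f y :=
  env_le_of hne fun _ _ hm => hm y hy

theorem env_mono [Nontrivial E] {K : Set E} (hK : Bornology.IsBounded Kᶜ) {f g : E → ℝ}
    (hne : ∃ (p : E) (c : ℝ), ∀ z ∈ K, inner ℝ p z + c ≤ f z) (hfg : ∀ z ∈ K, f z ≤ g z) (y : E) :
    Env K f y ≤ Env K g y :=
  env_le_of hne fun _ _ hm => le_env hK (fun z hz => (hm z hz).trans (hfg z hz)) y

/-- uniform continuity of the envelope -/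
theorem env_le_add [Nontrivial E] {K : Set E} (hK : Bornology.IsBounded Kᶜ) {f g : E → ℝ} {ε : ℝ}
    (hne : ∃ (p : E) (c : ℝ), ∀ z ∈ K, inner ℝ p z + c ≤ f z) (hfg : ∀ z ∈ K, f z ≤ g z + ε)
    (y : E) : Env K f y ≤ Env K g y + ε := by
  refine env_le_of hne fun p c hm => ?_
  have h := le_env hK (f := g) (p := p) (c := c - ε) (fun z hz => by
    have h1 := hm z hz
    have h2 := hfg z hz
    linarith) y
  linarith

/-- the envelope is convex -/
theorem convexOn_env [Nontrivial E] {K : Set E} (hK : Bornology.IsBounded Kᶜ) {f : E → ℝ}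
    (hne : ∃ (p : E) (c : ℝ), ∀ z ∈ K, inner ℝ p z + c ≤ f z) : ConvexOn ℝ univ (Env K f) := by
  refine ⟨convex_univ, fun x _ y _ a b ha hb hab => ?_⟩
  refine env_le_of hne fun p c hm => ?_
  have h1 := mul_le_mul_of_nonneg_left (le_env hK hm x) ha
  have h2 := mul_le_mul_of_nonneg_left (le_env hK hm y) hb
  simp only [smul_eq_mul]
  rw [inner_add_right, real_inner_smul_right, real_inner_smul_right]
  have h3 : a * c + b * c = c := by rw [← add_mul, hab, one_mul]
  nlinarith

/-- subgradients of finite convex functions -/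
theorem exists_subgradient [FiniteDimensional ℝ E] {f : E → ℝ} (hf : ConvexOn ℝ univ f) (y : E) :
    ∃ p : E, ∀ z, f y + inner ℝ p (z - y) ≤ f z := by
  have hcont : Continuous f := hf.locallyLipschitz.continuous
  set s : Set (E × ℝ) := {x | f x.1 < x.2} with hs
  have hso : IsOpen s := isOpen_lt (hcont.comp continuous_fst) continuous_snd
  have hsc : Convex ℝ s := by
    have h := hf.convex_strict_epigraph
    simpa [hs] using h
  have hmem : (y, f y) ∉ s := by simp [hs]
  obtain ⟨φ, hφ⟩ := geometric_hahn_banach_open_point hsc hso hmem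
  set c : ℝ := φ (0, 1) with hc
  set ψ : E →L[ℝ] ℝ := φ.comp (ContinuousLinearMap.inl ℝ E ℝ) with hψ
  have hval : ∀ (x : E) (t : ℝ), φ (x, t) = ψ x + t * c := by
    intro x t
    have h1 : (x, t) = (x, (0 : ℝ)) + t • ((0 : E), (1 : ℝ)) := by simp
    rw [h1, map_add, map_smul]
    simp [hψ, hc]
  have hcneg : c < 0 := by
    have h1 := hφ (y, f y + 1) (by simp [hs])
    rw [hval, hval] at h1
    linarith
  have hkey : ∀ z, ψ z + f z * c ≤ ψ y + f y * c := by
    intro z
    have h1 : ∀ ε > 0, ψ z + f z * c ≤ ψ y + f y * c + ε * (-c) := by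
      intro ε hε
      have h2 := hφ (z, f z + ε) (by simpa [hs] using hε)
      rw [hval, hval] at h2
      nlinarith
    refine le_of_forall_pos_le_add fun δ hδ => ?_
    have h2 := h1 (δ / (-c)) (div_pos hδ (by linarith))
    rwa [div_mul_cancel₀ _ (by linarith : (-c) ≠ 0)] at h2
  refine ⟨(InnerProductSpace.toDual ℝ E).symm ((-c)⁻¹ • ψ), fun z => ?_⟩
  rw [InnerProductSpace.toDual_symm_apply]
  have h1 := hkey z
  have h2 : ((-c)⁻¹ • ψ) (z - y) = (ψ z - ψ y) / (-c) := by
    simp only [smul_apply, map_sub, smul_eq_mul]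
    ring
  rw [h2]
  have h3 : (ψ z - ψ y) / (-c) ≤ f z - f y := by
    rw [div_le_iff₀ (by linarith)]
    nlinarith
  linarith

/-- a finite convex function has affine minorants -/
theorem exists_minor [FiniteDimensional ℝ E] {f : E → ℝ} (hf : ConvexOn ℝ univ f) (K : Set E) :
    ∃ (p : E) (c : ℝ), ∀ z ∈ K, inner ℝ p z + c ≤ f z := by
  obtain ⟨p, hp⟩ := exists_subgradient hf 0
  refine ⟨p, f 0, fun z _ => ?_⟩
  have := hp z
  rw [sub_zero] at this
  linarith

/-- a finite convex function is at most its envelope over any `K` -/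
theorem le_env_of_convex [FiniteDimensional ℝ E] [Nontrivial E] {K : Set E}
    (hK : Bornology.IsBounded Kᶜ) {f : E → ℝ} (hf : ConvexOn ℝ univ f) (y : E) :
    f y ≤ Env K f y := by
  obtain ⟨p, hp⟩ := exists_subgradient hf y
  have h := le_env hK (f := f) (p := p) (c := f y - inner ℝ p y) (fun z _ => by
    have := hp z
    rw [inner_sub_right] at this
    linarith) y
  linarith

theorem env_eq_of_convex [FiniteDimensional ℝ E] [Nontrivial E] {K : Set E}
    (hK : Bornology.IsBounded Kᶜ) {f : E → ℝ} (hf : ConvexOn ℝ univ f) {y : E} (hy : y ∈ K) :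
    Env K f y = f y :=
  le_antisymm (env_le (exists_minor hf K) hy) (le_env_of_convex hK hf y)

omit [InnerProductSpace ℝ E] in
theorem bounded_univ_compl : Bornology.IsBounded ((univ : Set E)ᶜ) := by
  rw [compl_univ]
  exact Bornology.isBounded_empty

/-- **contact**: at a minimiser of `H - <p,.>` the convex envelope of `H` touches `H`, and the point is
a minimiser for the envelope as well -/
theorem env_contact [Nontrivial E] {H : E → ℝ} {p z : E}
    (hz : ∀ y, H z - inner ℝ p z ≤ H y - inner ℝ p y) :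
    Env univ H z = H z ∧ ∀ y, Env univ H z - inner ℝ p z ≤ Env univ H y - inner ℝ p y := by
  have hm : ∀ y ∈ (univ : Set E), inner ℝ p y + (H z - inner ℝ p z) ≤ H y := fun y _ => by
    have := hz y
    linarith
  have h1 := le_env bounded_univ_compl hm
  have h2 : Env univ H z ≤ H z := env_le ⟨p, _, hm⟩ (mem_univ z)
  have h3 : Env univ H z = H z := le_antisymm h2 (by have := h1 z; linarith)
  refine ⟨h3, fun y => ?_⟩
  have := h1 y
  rw [h3]
  linarith

/-! ## The operator `S` -/

/-- `S Psi` is at least `Psi` -/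
theorem le_SS {h : ℝ} {Psi : E → ℝ}
    (hne : ∃ (p : E) (c : ℝ), ∀ z ∈ (univ : Set E), inner ℝ p z + c ≤ (1 + h) * qq z - Psi z)
    (y : E) : Psi y ≤ SS h Psi y := by
  have h1 := env_le hne (mem_univ y)
  unfold SS
  linarith

/-- `S Psi` is convex (translated parabolas) -/
theorem convexOn_SS [Nontrivial E] {h : ℝ} {Psi : E → ℝ} (hc : ConvexOn ℝ univ Psi)
    (hne : ∃ (p : E) (c : ℝ), ∀ z ∈ (univ : Set E), inner ℝ p z + c ≤ (1 + h) * qq z - Psi z) :
    ConvexOn ℝ univ (SS h Psi) := by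
  refine ⟨convex_univ, fun x _ y _ a b ha hb hab => ?_⟩
  set w : E := a • x + b • y with hw
  set H : E → ℝ := fun z => (1 + h) * qq z - Psi z with hH
  have h0 : a • (x - w) + b • (y - w) = 0 := mean_zero x y hab
  have hq := qq_comb w hab h0
  rw [add_sub_cancel, add_sub_cancel] at hq
  have hkey : ∀ ε > 0, a * Env univ H x + b * Env univ H y + (1 + h) * (qq w - (a * qq x + b * qq y))
      - ε ≤ Env univ H w := by
    intro ε hε
    obtain ⟨p0, c0, hm0, hv0⟩ := exists_near x hne hε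
    obtain ⟨p1, c1, hm1, hv1⟩ := exists_near y hne hε
    have hm : ∀ z ∈ (univ : Set E), inner ℝ (a • p0 + b • p1) z +
        (a * (inner ℝ p0 (x - w) + c0) + b * (inner ℝ p1 (y - w) + c1)
          - (1 + h) * (a * qq (x - w) + b * qq (y - w))) ≤ H z := by
      intro z _
      have e0 := mul_le_mul_of_nonneg_left (hm0 (z + (x - w)) (mem_univ _)) ha
      have e1 := mul_le_mul_of_nonneg_left (hm1 (z + (y - w)) (mem_univ _)) hb
      have e2 := qq_comb z hab h0
      have e3 := hc.2 (mem_univ (z + (x - w))) (mem_univ (z + (y - w))) ha hb hab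
      have e4 : a • (z + (x - w)) + b • (z + (y - w)) = z := by
        have : a • (z + (x - w)) + b • (z + (y - w)) = (a + b) • z + (a • (x - w) + b • (y - w)) := by
          module
        rw [this, h0, hab, one_smul, add_zero]
      rw [e4] at e3
      simp only [smul_eq_mul] at e3
      simp only [hH] at e0 e1 ⊢
      rw [inner_add_right] at e0 e1
      rw [inner_add_left, real_inner_smul_left, real_inner_smul_left]
      linear_combination e0 + e1 + e3 + (1 + h) * e2
    have h1 := le_env bounded_univ_compl hm w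
    rw [inner_add_left, real_inner_smul_left, real_inner_smul_left, inner_sub_right,
      inner_sub_right] at h1
    have h2 := mul_le_mul_of_nonneg_left hv0.le ha
    have h3 := mul_le_mul_of_nonneg_left hv1.le hb
    have h4 : a * ε + b * ε = ε := by rw [← add_mul, hab, one_mul]
    linear_combination h1 + h2 + h3 + h4 - (1 + h) * hq
  have h1 : a * Env univ H x + b * Env univ H y + (1 + h) * (qq w - (a * qq x + b * qq y))
      ≤ Env univ H w := by
    refine le_of_forall_pos_le_add fun ε hε => ?_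
    have := hkey ε hε
    linarith
  simp only [smul_eq_mul]
  change (1 + h) * qq w - Env univ H w ≤ a * ((1 + h) * qq x - Env univ H x) +
    b * ((1 + h) * qq y - Env univ H y)
  nlinarith

/-- `(1+h) q - S Psi` is convex -/
theorem convexOn_sub_SS [Nontrivial E] {h : ℝ} {Psi : E → ℝ}
    (hne : ∃ (p : E) (c : ℝ), ∀ z ∈ (univ : Set E), inner ℝ p z + c ≤ (1 + h) * qq z - Psi z) :
    ConvexOn ℝ univ (fun y => (1 + h) * qq y - SS h Psi y) := by
  have h1 := convexOn_env bounded_univ_compl hne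
  have h2 : (fun y => (1 + h) * qq y - SS h Psi y) =
      Env univ (fun z => (1 + h) * qq z - Psi z) := by
    funext y
    unfold SS
    ring
  rw [h2]
  exact h1

/-! ## One step of the chain -/

/-- coercivity -/
theorem tendsto_sub_inner {H : E → ℝ} {h R : ℝ} (hh : 0 < h) [ProperSpace E]
    (hR : ∀ y, R ≤ ‖y‖ → H y = h * qq y) (p : E) :
    Tendsto (fun y => H y - inner ℝ p y) (cocompact E) atTop := by
  have h1 : Tendsto (fun t : ℝ => t * (h / 2 * t - ‖p‖)) atTop atTop := by
    refine Tendsto.atTop_mul_atTop₀ tendsto_id ?_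
    refine tendsto_atTop_add_const_right _ _ ?_
    exact Tendsto.const_mul_atTop (by positivity) tendsto_id
  have h2 : Tendsto (fun y : E => ‖y‖ * (h / 2 * ‖y‖ - ‖p‖)) (cocompact E) atTop :=
    h1.comp tendsto_norm_cocompact_atTop
  refine tendsto_atTop_mono' _ ?_ h2
  have h3 : ∀ᶠ y in cocompact E, R ≤ ‖y‖ :=
    tendsto_norm_cocompact_atTop.eventually_ge_atTop R
  filter_upwards [h3] with y hy
  rw [hR y hy]
  have h4 := real_inner_le_norm p y
  unfold qq
  nlinarith

/-- all the properties of one step -/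
theorem step [FiniteDimensional ℝ E] [Nontrivial E] {h : ℝ} (hh : 0 < h) {V : Set E}
    (hV : Bornology.IsBounded V) {F : E → ℝ} (hc : ConvexOn ℝ univ F)
    (hR : ∃ R, ∀ y, R ≤ ‖y‖ → F y = qq y) :
    ConvexOn ℝ univ (SS h (Env Vᶜ F)) ∧
    ConvexOn ℝ univ (fun y => (1 + h) * qq y - SS h (Env Vᶜ F) y) ∧
    (∀ y, F y ≤ Env Vᶜ F y) ∧ (∀ y, Env Vᶜ F y ≤ SS h (Env Vᶜ F) y) ∧
    (∀ y ∉ V, Env Vᶜ F y = F y) ∧
    (∃ R, ∀ y, R ≤ ‖y‖ → SS h (Env Vᶜ F) y = qq y) ∧
    (∀ p : E, ∃ z, (∀ y, (1 + h) * qq z - SS h (Env Vᶜ F) z - inner ℝ p z ≤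
      (1 + h) * qq y - SS h (Env Vᶜ F) y - inner ℝ p y) ∧
      (z ∉ V → SS h (Env Vᶜ F) z = F z)) := by
  have hVc : Bornology.IsBounded (Vᶜᶜ : Set E) := by rwa [compl_compl]
  set A : E → ℝ := Env Vᶜ F with hA
  have hAc : ConvexOn ℝ univ A := convexOn_env hVc (exists_minor hc _)
  have hAcont : Continuous A := hAc.locallyLipschitz.continuous
  have hFA : ∀ y, F y ≤ A y := le_env_of_convex hVc hc
  have hAF : ∀ y ∉ V, A y = F y := fun y hy => env_eq_of_convex hVc hc hy
  -- `A = q` outside a ball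
  obtain ⟨R0, hR0⟩ := hR
  obtain ⟨R1, hR1⟩ := hV.subset_closedBall (0 : E)
  set R : ℝ := max R0 (R1 + 1) with hRdef
  have hAR : ∀ y, R ≤ ‖y‖ → A y = qq y := by
    intro y hy
    rw [hAF y, hR0 y (le_trans (le_max_left _ _) hy)]
    intro hyV
    have h1 := hR1 hyV
    rw [mem_closedBall_zero_iff] at h1
    have h2 : R1 + 1 ≤ ‖y‖ := le_trans (le_max_right _ _) hy
    linarith
  set H : E → ℝ := fun z => (1 + h) * qq z - A z with hH
  have hHcont : Continuous H := (continuous_const.mul continuous_qq).sub hAcont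
  have hHR : ∀ y, R ≤ ‖y‖ → H y = h * qq y := by
    intro y hy
    simp only [hH]
    rw [hAR y hy]
    ring
  have hmin : ∀ p : E, ∃ z, ∀ y, H z - inner ℝ p z ≤ H y - inner ℝ p y := fun p =>
    (hHcont.sub (continuous_const.inner continuous_id)).exists_forall_le
      (tendsto_sub_inner hh hHR p)
  have hne : ∃ (p : E) (c : ℝ), ∀ z ∈ (univ : Set E), inner ℝ p z + c ≤ (1 + h) * qq z - A z := by
    obtain ⟨z0, hz0⟩ := hmin 0
    refine ⟨0, H z0, fun z _ => ?_⟩
    have h1 := hz0 z
    simp only [inner_zero_left, sub_zero] at h1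
    rw [inner_zero_left, zero_add]
    exact h1
  refine ⟨convexOn_SS hAc hne, convexOn_sub_SS hne, hFA, le_SS hne, hAF, ?_, ?_⟩
  · -- compact support
    obtain ⟨M, hM⟩ := (isCompact_closedBall (0 : E) R).bddAbove_image
      (f := fun y => A y - qq y) (hAcont.sub continuous_qq).continuousOn
    have hM' : ∀ z, A z - qq z ≤ max M 0 := by
      intro z
      by_cases hz : ‖z‖ ≤ R
      · exact (hM ⟨z, by rwa [mem_closedBall_zero_iff], rfl⟩).trans (le_max_left _ _)
      · rw [hAR z (not_le.mp hz).le, sub_self]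
        exact le_max_right _ _
    set D : ℝ := Real.sqrt (2 * max M 0 / h) with hD
    refine ⟨R + D, fun y hy => ?_⟩
    have hD0 : 0 ≤ D := Real.sqrt_nonneg _
    have hyR : R ≤ ‖y‖ := by linarith
    -- the tangent parabola at `y`
    have hm : ∀ z ∈ (univ : Set E), inner ℝ (h • y) z + (h * qq y - inner ℝ (h • y) y) ≤ H z := by
      intro z _
      have e1 := qq_tangent y z
      rw [inner_sub_right] at e1
      rw [real_inner_smul_left, real_inner_smul_left]
      have e2 := qq_nonneg (z - y)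
      by_cases hz : R ≤ ‖z‖
      · rw [hHR z hz]
        nlinarith [mul_nonneg hh.le e2]
      · have e3 : D ≤ ‖z - y‖ := by
          have := norm_sub_norm_le y z
          rw [norm_sub_rev] at this
          linarith [not_le.mp hz]
        have e4 : 2 * max M 0 / h ≤ ‖z - y‖ ^ 2 := by
          have h1 : D ^ 2 ≤ ‖z - y‖ ^ 2 := pow_le_pow_left₀ hD0 e3 2
          rwa [hD, Real.sq_sqrt (by positivity)] at h1
        have e5 : max M 0 ≤ h * qq (z - y) := by
          unfold qq
          rw [div_le_iff₀ hh] at e4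
          linarith
        have e6 := hM' z
        simp only [hH]
        nlinarith
    have h1 := le_env bounded_univ_compl hm y
    have h2 : Env univ H y ≤ H y := env_le hne (mem_univ y)
    rw [hHR y hyR] at h2
    have h3 : Env univ H y = h * qq y := le_antisymm h2 (by linarith)
    change (1 + h) * qq y - Env univ H y = qq y
    rw [h3]
    ring
  · -- contact
    intro p
    obtain ⟨z, hz⟩ := hmin p
    obtain ⟨h1, h2⟩ := env_contact hz
    refine ⟨z, fun y => ?_, fun hzV => ?_⟩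
    · have h3 := h2 y
      have h4 : ∀ w, (1 + h) * qq w - SS h A w = Env univ H w := fun w => by
        unfold SS
        ring
      rw [h4, h4]
      exact h3
    · change (1 + h) * qq z - Env univ H z = F z
      rw [h1, ← hAF z hzV]
      simp only [hH]
      ring

/-! ## The chain -/

section Chain

variable [FiniteDimensional ℝ E] [Nontrivial E] {h : ℝ} {V : Set E}

theorem Phi_inv (hh : 0 < h) (hV : Bornology.IsBounded V) (k : ℕ) :
    ConvexOn ℝ univ (Phi h V k) ∧ (∀ y, qq y ≤ Phi h V k y) ∧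
      ∃ R, ∀ y, R ≤ ‖y‖ → Phi h V k y = qq y := by
  induction k with
  | zero => exact ⟨convexOn_qq, fun _ => le_rfl, 0, fun _ _ => rfl⟩
  | succ k ih =>
    obtain ⟨h1, h2, h3⟩ := ih
    obtain ⟨s1, _, s3, s4, _, s6, _⟩ := step hh hV h1 h3
    exact ⟨s1, fun y => (h2 y).trans ((s3 y).trans (s4 y)), s6⟩

theorem convexOn_Phi (hh : 0 < h) (hV : Bornology.IsBounded V) (k : ℕ) :
    ConvexOn ℝ univ (Phi h V k) := (Phi_inv hh hV k).1

theorem qq_le_Phi (hh : 0 < h) (hV : Bornology.IsBounded V) (k : ℕ) (y : E) :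
    qq y ≤ Phi h V k y := (Phi_inv hh hV k).2.1 y

theorem Phi_eq_qq (hh : 0 < h) (hV : Bornology.IsBounded V) (k : ℕ) :
    ∃ R, ∀ y, R ≤ ‖y‖ → Phi h V k y = qq y := (Phi_inv hh hV k).2.2

theorem convexOn_GG (hh : 0 < h) (hV : Bornology.IsBounded V) (k : ℕ) :
    ConvexOn ℝ univ (GG h V k) := by
  cases k with
  | zero =>
    have h1 : GG h V 0 = fun y : E => h * qq y := by
      funext y
      simp only [GG, Phi]
      ring
    rw [h1]
    have h2 := (convexOn_qq (E := E)).smul hh.le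
    simpa [Pi.smul_def, smul_eq_mul] using h2
  | succ k =>
    obtain ⟨h1, h2, h3⟩ := Phi_inv hh hV k
    exact (step hh hV h1 h3).2.1

theorem Phi_le_env (hh : 0 < h) (hV : Bornology.IsBounded V) (k : ℕ) (y : E) :
    Phi h V k y ≤ Env Vᶜ (Phi h V k) y := by
  obtain ⟨h1, h2, h3⟩ := Phi_inv hh hV k
  exact (step hh hV h1 h3).2.2.1 y

theorem env_le_Phi (hh : 0 < h) (hV : Bornology.IsBounded V) (k : ℕ) (y : E) :
    Env Vᶜ (Phi h V k) y ≤ Phi h V (k + 1) y := by
  obtain ⟨h1, h2, h3⟩ := Phi_inv hh hV k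
  exact (step hh hV h1 h3).2.2.2.1 y

theorem Phi_mono (hh : 0 < h) (hV : Bornology.IsBounded V) (k : ℕ) (y : E) :
    Phi h V k y ≤ Phi h V (k + 1) y :=
  (Phi_le_env hh hV k y).trans (env_le_Phi hh hV k y)

theorem env_Phi_eq (hh : 0 < h) (hV : Bornology.IsBounded V) (k : ℕ) {y : E} (hy : y ∉ V) :
    Env Vᶜ (Phi h V k) y = Phi h V k y := by
  obtain ⟨h1, h2, h3⟩ := Phi_inv hh hV k
  exact (step hh hV h1 h3).2.2.2.2.1 y hy

omit [FiniteDimensional ℝ E] [Nontrivial E] in
theorem GG_zero (y : E) : GG h V 0 y = h * qq y := by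
  simp only [GG, Phi]
  ring

theorem GG_anti (hh : 0 < h) (hV : Bornology.IsBounded V) (k : ℕ) (y : E) :
    GG h V (k + 1) y ≤ GG h V k y := by
  have := Phi_mono hh hV k y
  unfold GG
  linarith

theorem GG_eq_far (hh : 0 < h) (hV : Bornology.IsBounded V) (k : ℕ) :
    ∃ R, ∀ y, R ≤ ‖y‖ → GG h V k y = GG h V 0 y := by
  obtain ⟨R, hR⟩ := Phi_eq_qq hh hV k
  refine ⟨R, fun y hy => ?_⟩
  unfold GG
  rw [hR y hy]
  rfl

/-- the contact property of the chain -/
theorem GG_contact (hh : 0 < h) (hV : Bornology.IsBounded V) (k : ℕ) (p : E) :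
    ∃ z, (∀ y, GG h V (k + 1) z - inner ℝ p z ≤ GG h V (k + 1) y - inner ℝ p y) ∧
      (z ∉ V → GG h V (k + 1) z = GG h V k z) := by
  obtain ⟨h1, h2, h3⟩ := Phi_inv hh hV k
  obtain ⟨z, hz1, hz2⟩ := (step hh hV h1 h3).2.2.2.2.2.2 p
  refine ⟨z, hz1, fun hzV => ?_⟩
  have := hz2 hzV
  change (1 + h) * qq z - SS h (Env Vᶜ (Phi h V k)) z = (1 + h) * qq z - Phi h V k z
  rw [this]

/-- **the chain** -/
theorem chain (hh : 0 < h) (hV : Bornology.IsBounded V) :
    (∀ y : E, GG h V 0 y = h / 2 * ‖y‖ ^ 2) ∧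
    (∀ k, ConvexOn ℝ univ (GG h V k)) ∧
    (∀ k, ConvexOn ℝ univ (fun y => (1 + h) / 2 * ‖y‖ ^ 2 - GG h V k y)) ∧
    (∀ k y, GG h V (k + 1) y ≤ GG h V k y) ∧
    (∀ k, ∃ R, ∀ y, R ≤ ‖y‖ → GG h V k y = GG h V 0 y) ∧
    (∀ k p, ∃ z, (∀ y, GG h V (k + 1) z - inner ℝ p z ≤ GG h V (k + 1) y - inner ℝ p y) ∧
      (z ∉ V → GG h V (k + 1) z = GG h V k z)) := by
  refine ⟨fun y => ?_, convexOn_GG hh hV, fun k => ?_, GG_anti hh hV, GG_eq_far hh hV,
    GG_contact hh hV⟩
  · rw [GG_zero]
    unfold qq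
    ring
  · have h1 : (fun y : E => (1 + h) / 2 * ‖y‖ ^ 2 - GG h V k y) = Phi h V k := by
      funext y
      unfold GG qq
      ring
    rw [h1]
    exact convexOn_Phi hh hV k

end Chain

end Vale.Agent.P073.H117
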